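import Mathlib
import Vale.Agent.H11.P041.Defs

/-!
# P054: the counting step at a pin, in dimension `e + 2`

Let all points of `P` have integer coordinates of absolute value at most `N`, let `x` be a
point of `P`, and suppose every circle `u^2 + v^2 = m` with `1 ≤ m ≤ 4 (e + 2) N^2` has at most
`R` integer points (`R ≥ 1`).  Then
`card P ≤ 1 + (number of distinct distances from x) * ((4 N + 1)^e * R)`.

Proof.  For `y` in `P` the difference `c = y - x` is an integer vector with `|c i| ≤ 2 N` and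
`dist x y ^ 2 = ∑ i, c i ^ 2`.  Fix a distance.  The last `e` coordinates of `c` take at most
at most `M^e` values with `M = 4 N + 1`; once they are fixed, the pair `c 0, c 1` is an integer
point of a fixed circle
`u^2 + v^2 = m` (at most `R` points if `m ≥ 1`, one point if `m = 0`), and `c` determines `y`.
-/

namespace Vale.Agent.H70.P054

open Vale.Agent.H11.P041

/-- The integer part of the difference of the `i`-th coordinates. -/
noncomputable def cdiff {d : ℕ} (x y : EuclideanSpace ℝ (Fin d)) (i : Fin d) : ℤ := ⌊y i - x i⌋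

theorem cdiff_spec {d : ℕ} (P : Finset (EuclideanSpace ℝ (Fin d))) (N : ℕ)
    (hP : ∀ p ∈ P, ∀ i, ∃ a : ℤ, p i = (a : ℝ) ∧ |a| ≤ (N : ℤ))
    (x y : EuclideanSpace ℝ (Fin d)) (hx : x ∈ P) (hy : y ∈ P) (i : Fin d) :
    ((cdiff x y i : ℤ) : ℝ) = y i - x i ∧ |cdiff x y i| ≤ 2 * (N : ℤ) := by
  obtain ⟨a, ha, ha'⟩ := hP x hx i
  obtain ⟨b, hb, hb'⟩ := hP y hy i
  have h1 : cdiff x y i = b - a := by
    unfold cdiff
    rw [ha, hb, ← Int.cast_sub, Int.floor_intCast]
  refine ⟨?_, ?_⟩
  · rw [h1, ha, hb]; push_cast; ring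
  · rw [h1]
    have := abs_sub b a
    linarith

theorem dist_sq_eq {d : ℕ} (P : Finset (EuclideanSpace ℝ (Fin d))) (N : ℕ)
    (hP : ∀ p ∈ P, ∀ i, ∃ a : ℤ, p i = (a : ℝ) ∧ |a| ≤ (N : ℤ))
    (x y : EuclideanSpace ℝ (Fin d)) (hx : x ∈ P) (hy : y ∈ P) :
    dist x y ^ 2 = ((∑ i, cdiff x y i ^ 2 : ℤ) : ℝ) := by
  rw [EuclideanSpace.dist_eq, Real.sq_sqrt (Finset.sum_nonneg fun i _ => sq_nonneg _)]
  push_cast
  refine Finset.sum_congr rfl fun i _ => ?_
  rw [(cdiff_spec P N hP x y hx hy i).1, Real.dist_eq, sq_abs]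
  ring

theorem ksum_eq_of_dist_eq {d : ℕ} (P : Finset (EuclideanSpace ℝ (Fin d))) (N : ℕ)
    (hP : ∀ p ∈ P, ∀ i, ∃ a : ℤ, p i = (a : ℝ) ∧ |a| ≤ (N : ℤ))
    (x y y' : EuclideanSpace ℝ (Fin d)) (hx : x ∈ P) (hy : y ∈ P) (hy' : y' ∈ P)
    (h : dist x y = dist x y') :
    (∑ i, cdiff x y i ^ 2 : ℤ) = ∑ i, cdiff x y' i ^ 2 := by
  have h1 := dist_sq_eq P N hP x y hx hy
  have h2 := dist_sq_eq P N hP x y' hx hy'
  rw [h] at h1
  have h3 : ((∑ i, cdiff x y i ^ 2 : ℤ) : ℝ) = ((∑ i, cdiff x y' i ^ 2 : ℤ) : ℝ) := by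
    rw [← h1, ← h2]
  exact_mod_cast h3

theorem eq_of_cdiff_eq {d : ℕ} (P : Finset (EuclideanSpace ℝ (Fin d))) (N : ℕ)
    (hP : ∀ p ∈ P, ∀ i, ∃ a : ℤ, p i = (a : ℝ) ∧ |a| ≤ (N : ℤ))
    (x y y' : EuclideanSpace ℝ (Fin d)) (hx : x ∈ P) (hy : y ∈ P) (hy' : y' ∈ P)
    (h : ∀ i, cdiff x y i = cdiff x y' i) : y = y' := by
  refine PiLp.ext fun i => ?_
  have h1 := (cdiff_spec P N hP x y hx hy i).1
  have h2 := (cdiff_spec P N hP x y' hx hy' i).1
  rw [h i] at h1
  linarith

/-- The pin count in dimension `e + 2`. -/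
theorem pin_count (e : ℕ) (P : Finset (EuclideanSpace ℝ (Fin (e + 2)))) (N R : ℕ) (hR1 : 1 ≤ R)
    (hP : ∀ p ∈ P, ∀ i, ∃ a : ℤ, p i = (a : ℝ) ∧ |a| ≤ (N : ℤ))
    (hR : ∀ m : ℕ, 1 ≤ m → m ≤ 4 * (e + 2) * N ^ 2 → (reps m).card ≤ R)
    (x : EuclideanSpace ℝ (Fin (e + 2))) (hx : x ∈ P) :
    P.card ≤ 1 + ((P.erase x).image (fun y => dist x y)).card * ((4 * N + 1) ^ e * R) := by
  classical
  have hcard : P.card = (P.erase x).card + 1 := (Finset.card_erase_add_one hx).symm
  have hmain : (P.erase x).card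
      ≤ ((4 * N + 1) ^ e * R) * ((P.erase x).image (fun y => dist x y)).card := by
    refine Finset.card_le_mul_card_image _ _ (fun ρ _ => ?_)
    set F := (P.erase x).filter (fun y => dist x y = ρ) with hF
    have hFP : ∀ y ∈ F, y ∈ P := fun y hy =>
      Finset.mem_of_mem_erase (Finset.mem_filter.mp hy).1
    have hFρ : ∀ y ∈ F, dist x y = ρ := fun y hy => (Finset.mem_filter.mp hy).2
    -- the projection to the last `e` coordinates
    set w : EuclideanSpace ℝ (Fin (e + 2)) → (Fin e → ℤ) :=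
      fun y j => cdiff x y j.succ.succ with hw
    set box : Finset (Fin e → ℤ) :=
      Fintype.piFinset (fun _ : Fin e => Finset.Icc (-(2 * (N : ℤ))) (2 * (N : ℤ))) with hbox
    have hboxcard : box.card = (4 * N + 1) ^ e := by
      rw [hbox, Fintype.card_piFinset_const, Int.card_Icc]
      congr 1
      omega
    have himg : (F.image w).card ≤ (4 * N + 1) ^ e := by
      rw [← hboxcard]
      refine Finset.card_le_card ?_
      intro v hv
      obtain ⟨y, hy, rfl⟩ := Finset.mem_image.mp hv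
      rw [hbox, Fintype.mem_piFinset]
      intro j
      have := (cdiff_spec P N hP x y hx (hFP y hy) j.succ.succ).2
      rw [Finset.mem_Icc]
      exact abs_le.mp this
    have hfib : F.card ≤ R * (F.image w).card := by
      refine Finset.card_le_mul_card_image _ _ (fun w0 _ => ?_)
      set G := F.filter (fun y => w y = w0) with hG
      have hGF : ∀ y ∈ G, y ∈ F := fun y hy => (Finset.mem_filter.mp hy).1
      have hGw : ∀ y ∈ G, w y = w0 := fun y hy => (Finset.mem_filter.mp hy).2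
      rcases G.eq_empty_or_nonempty with hGe | ⟨y0, hy0⟩
      · rw [hGe]; simp
      set m : ℤ := cdiff x y0 0 ^ 2 + cdiff x y0 1 ^ 2 with hm
      have hsplit : ∀ y : EuclideanSpace ℝ (Fin (e + 2)),
          (∑ i, cdiff x y i ^ 2 : ℤ)
            = cdiff x y 0 ^ 2 + cdiff x y 1 ^ 2 + ∑ j : Fin e, (w y j) ^ 2 := by
        intro y
        rw [Fin.sum_univ_succ, Fin.sum_univ_succ, Fin.succ_zero_eq_one]
        simp only [hw]
        ring
      have hGm : ∀ y ∈ G, cdiff x y 0 ^ 2 + cdiff x y 1 ^ 2 = m := by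
        intro y hy
        have h1 := ksum_eq_of_dist_eq P N hP x y y0 hx (hFP y (hGF y hy)) (hFP y0 (hGF y0 hy0))
          (by rw [hFρ y (hGF y hy), hFρ y0 (hGF y0 hy0)])
        rw [hsplit y, hsplit y0, hGw y hy, hGw y0 hy0] at h1
        linarith
      set φ : EuclideanSpace ℝ (Fin (e + 2)) → ℤ × ℤ := fun y => (cdiff x y 0, cdiff x y 1)
        with hφ
      have hinj : Set.InjOn φ (G : Set (EuclideanSpace ℝ (Fin (e + 2)))) := by
        intro y hy y' hy' hyy
        have hy1 : y ∈ G := hy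
        have hy1' : y' ∈ G := hy'
        refine eq_of_cdiff_eq P N hP x y y' hx (hFP y (hGF y hy1)) (hFP y' (hGF y' hy1')) ?_
        have h0 : cdiff x y 0 = cdiff x y' 0 := congrArg Prod.fst hyy
        have h1 : cdiff x y 1 = cdiff x y' 1 := congrArg Prod.snd hyy
        have hw' : w y = w y' := by rw [hGw y hy1, hGw y' hy1']
        intro i
        refine Fin.cases ?_ (fun i' => ?_) i
        · exact h0
        · refine Fin.cases ?_ (fun j => ?_) i'
          · exact h1
          · exact congrFun hw' j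
      have hm0 : 0 ≤ m := by rw [hm]; positivity
      by_cases hm1 : 1 ≤ m
      · -- the circle of squared radius `m`
        have hmle : m.toNat ≤ 4 * (e + 2) * N ^ 2 := by
          have hb : ∀ i : Fin (e + 2), cdiff x y0 i ^ 2 ≤ (2 * (N : ℤ)) ^ 2 := by
            intro i
            have := (cdiff_spec P N hP x y0 hx (hFP y0 (hGF y0 hy0)) i).2
            exact sq_le_sq' (by linarith [abs_le.mp this]) (abs_le.mp this).2
          have hsum : (∑ i, cdiff x y0 i ^ 2 : ℤ) ≤ ∑ _i : Fin (e + 2), (2 * (N : ℤ)) ^ 2 :=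
            Finset.sum_le_sum fun i _ => hb i
          rw [Finset.sum_const, Finset.card_univ, Fintype.card_fin, hsplit y0] at hsum
          have hnn : (0 : ℤ) ≤ ∑ j : Fin e, (w y0 j) ^ 2 :=
            Finset.sum_nonneg fun j _ => sq_nonneg _
          have hmz : m ≤ ((4 * (e + 2) * N ^ 2 : ℕ) : ℤ) := by
            push_cast
            simp only [nsmul_eq_mul] at hsum
            push_cast at hsum
            nlinarith
          omega
        have hm1' : 1 ≤ m.toNat := by omega
        refine le_trans (Finset.card_le_card_of_injOn φ ?_ hinj) (hR m.toNat hm1' hmle)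
        intro y hy
        refine Finset.mem_coe.mpr (mem_reps.mpr ?_)
        rw [Int.toNat_of_nonneg hm0]
        exact hGm y hy
      · have hmz : m = 0 := by omega
        refine le_trans (Finset.card_le_card_of_injOn φ (t := {((0 : ℤ), (0 : ℤ))}) ?_ hinj) ?_
        · intro y hy
          have h := hGm y hy
          rw [hmz] at h
          have h0 : cdiff x y 0 = 0 := by nlinarith [sq_nonneg (cdiff x y 0), sq_nonneg (cdiff x y 1)]
          have h1 : cdiff x y 1 = 0 := by nlinarith [sq_nonneg (cdiff x y 0), sq_nonneg (cdiff x y 1)]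
          refine Finset.mem_coe.mpr (Finset.mem_singleton.mpr ?_)
          rw [hφ]
          simp only [h0, h1]
        · simpa using hR1
    calc F.card ≤ R * (F.image w).card := hfib
      _ ≤ R * (4 * N + 1) ^ e := Nat.mul_le_mul_left _ himg
      _ = (4 * N + 1) ^ e * R := Nat.mul_comm _ _
  rw [hcard]
  have := hmain
  nlinarith [Nat.mul_comm ((4 * N + 1) ^ e * R) ((P.erase x).image (fun y => dist x y)).card]

end Vale.Agent.H70.P054
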