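import Mathlib
import Vale.Agent.H11.P041.Defs
import Vale.Agent.H11.P041.RepsBound
import Vale.Agent.H70.P054.Count

/-!
# P054: distinct distances in dense subsets of integer grids, every dimension `d ≥ 2`

Assembly of the final statement from `pin_count` (Count.lean) and `reps_bound`
(`Vale/Agent/H11/P041/RepsBound.lean`: every circle `u^2 + v^2 = m` has at most `K m^δ` integer
points).

Write `d = e + 2`, `A1 = max A 1`, `δ = ε d / 4`, `B = A1 n^(1/d)`, `N = ⌊B⌋`.  Every circle of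
squared radius `m ≤ 4 d N^2` has at most `K (4 d B^2)^δ = C0 n^(ε/2)` integer points, with
`C0 = K (4 d A1^2)^δ`, and the box count is at most `5^e B^e = 5^e A1^e n^(e/d)`.  So by `pin_count`
`n ≤ 1 + D C1 n^(e/d) n^(ε/2)` with `C1 = (5 A1)^e C0`, where `D` is the number of distances at
the pin.  As `n ≥ 2` and `n^(ε/2) ≥ 2 C1` this gives `n^(2/d - ε) ≤ D`.
-/

namespace Vale.Agent.H70.P054

open Vale.Agent.H11.P041

/-- The real-number arithmetic at the end of the proof. -/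
theorem final_arith (n D C1 s t q : ℝ) (hn2 : 2 ≤ n) (hD0 : 0 ≤ D) (hs : 0 < s) (ht : 0 < t)
    (hC : 2 * C1 ≤ t) (hcount : n ≤ 1 + D * (C1 * s * t))
    (hsplit : q * (s * t * t) = n) : q ≤ D := by
  have h3 : n ≤ 2 * (D * (C1 * s * t)) := by linarith
  have h4 : 2 * (D * (C1 * s * t)) ≤ D * s * t * t := by
    have h5 := mul_le_mul_of_nonneg_left hC (mul_nonneg (mul_nonneg hD0 hs.le) ht.le)
    nlinarith
  have h6 : q * (s * t * t) ≤ D * (s * t * t) := by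
    rw [hsplit]
    calc n ≤ D * s * t * t := le_trans h3 h4
      _ = D * (s * t * t) := by ring
  exact le_of_mul_le_mul_right h6 (by positivity)

/-- The exponent bookkeeping: `n^(2/d - ε) * (r^e * t * t) = n` for `r = n^(1/d)`,
`t = n^(ε/2)`, `d = e + 2`. -/
theorem final_split (n : ℝ) (hn : 0 < n) (e : ℕ) (dR ε : ℝ) (hdRe : dR = (e : ℝ) + 2) :
    n ^ ((2 : ℝ) / dR - ε) * ((n ^ ((1 : ℝ) / dR)) ^ e * n ^ (ε / 2) * n ^ (ε / 2)) = n := by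
  have hdRpos : (0 : ℝ) < dR := by rw [hdRe]; positivity
  have hexp : (1 : ℝ) / dR * ((e : ℕ) : ℝ) = (e : ℝ) / dR := by ring
  have hs' : (n ^ ((1 : ℝ) / dR)) ^ e = n ^ ((e : ℝ) / dR) := by
    rw [← Real.rpow_natCast, ← Real.rpow_mul hn.le, hexp]
  have hexp1 : (2 : ℝ) / dR - ε + ((e : ℝ) / dR + (ε / 2 + ε / 2)) = 1 := by
    rw [hdRe]
    field_simp
    ring
  rw [hs', mul_assoc, ← Real.rpow_add hn, ← Real.rpow_add hn, ← Real.rpow_add hn, hexp1,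
    Real.rpow_one]

/-- The identity `r^(2δ) = n^(ε/2)` for `r = n^(1/d)`, `δ = ε d / 4`. -/
theorem final_rdelta (n : ℝ) (hn : 0 < n) (dR ε : ℝ) (hdRpos : 0 < dR) :
    ((n ^ ((1 : ℝ) / dR)) ^ 2) ^ (ε * dR / 4) = n ^ (ε / 2) := by
  have hexp : (1 : ℝ) / dR * ((2 : ℕ) : ℝ) * (ε * dR / 4) = ε / 2 := by
    push_cast
    field_simp
    ring
  rw [← Real.rpow_natCast, ← Real.rpow_mul hn.le, ← Real.rpow_mul hn.le, hexp]

/-- Integer coordinates bounded by a real number are bounded by its floor. -/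
theorem final_coord (a : ℤ) (B : ℝ) (h1 : |(a : ℝ)| ≤ B) : |a| ≤ ((⌊B⌋₊ : ℕ) : ℤ) := by
  have h3 : ((|a|.toNat : ℕ) : ℤ) = |a| := Int.toNat_of_nonneg (abs_nonneg a)
  have h2 : ((|a|.toNat : ℕ) : ℝ) ≤ B := by
    have h4 : ((|a|.toNat : ℕ) : ℝ) = ((|a| : ℤ) : ℝ) := by
      rw [← h3]
      push_cast
      rfl
    rw [h4, Int.cast_abs]
    exact h1
  have h5 : |a|.toNat ≤ ⌊B⌋₊ := Nat.le_floor h2
  rw [← h3]
  exact_mod_cast h5

theorem final_statement (d : ℕ) (hd : 2 ≤ d) (ε : ℝ) (hε : 0 < ε) (A : ℝ) :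
    ∃ n₀ : ℕ, ∀ P : Finset (EuclideanSpace ℝ (Fin d)), n₀ ≤ P.card →
      (∀ p ∈ P, ∀ i, ∃ a : ℤ, p i = (a : ℝ) ∧
        |(a : ℝ)| ≤ A * (P.card : ℝ) ^ ((1 : ℝ) / (d : ℝ))) →
      ∀ x ∈ P, (P.card : ℝ) ^ ((2 : ℝ) / (d : ℝ) - ε) ≤
        (((P.erase x).image fun y => dist x y).card : ℝ) := by
  obtain ⟨e, rfl⟩ : ∃ e, d = e + 2 := Nat.exists_eq_add_of_le' hd
  obtain ⟨dR, hdR⟩ : ∃ dR : ℝ, dR = ((e + 2 : ℕ) : ℝ) := ⟨_, rfl⟩
  rw [← hdR]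
  have hdRe : dR = (e : ℝ) + 2 := by rw [hdR]; push_cast; ring
  have hdR2 : (2 : ℝ) ≤ dR := by rw [hdRe]; linarith [Nat.cast_nonneg (α := ℝ) e]
  have hdRpos : (0 : ℝ) < dR := by linarith
  obtain ⟨δ, hδdef⟩ : ∃ δ : ℝ, δ = ε * dR / 4 := ⟨_, rfl⟩
  have hδ : 0 < δ := by rw [hδdef]; positivity
  obtain ⟨K, hK1, hK⟩ := reps_bound δ hδ
  obtain ⟨A1, hA1def⟩ : ∃ A1 : ℝ, A1 = max A 1 := ⟨_, rfl⟩
  have hA1 : (1 : ℝ) ≤ A1 := by rw [hA1def]; exact le_max_right _ _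
  have hAA1 : A ≤ A1 := by rw [hA1def]; exact le_max_left _ _
  have hbase : (1 : ℝ) ≤ 4 * dR * A1 ^ 2 := by nlinarith
  obtain ⟨C0, hC0def⟩ : ∃ C0 : ℝ, C0 = K * (4 * dR * A1 ^ 2) ^ δ := ⟨_, rfl⟩
  have hC01 : (1 : ℝ) ≤ C0 := by
    rw [hC0def]
    have := Real.one_le_rpow hbase hδ.le
    nlinarith
  obtain ⟨C1, hC1def⟩ : ∃ C1 : ℝ, C1 = (5 * A1) ^ e * C0 := ⟨_, rfl⟩
  have hC11 : (1 : ℝ) ≤ C1 := by
    rw [hC1def]
    have h5 : (1 : ℝ) ≤ (5 * A1) ^ e := one_le_pow₀ (by linarith)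
    nlinarith
  refine ⟨max 2 ⌈(2 * C1) ^ (2 / ε)⌉₊, ?_⟩
  intro P hn hP x hx
  obtain ⟨n, hn_def⟩ : ∃ n : ℕ, n = P.card := ⟨_, rfl⟩
  rw [← hn_def] at hn hP ⊢
  have hn2 : 2 ≤ n := le_trans (le_max_left _ _) hn
  have hnK : (2 * C1) ^ (2 / ε) ≤ (n : ℝ) := by
    have h := le_trans (le_max_right _ _) hn
    exact le_trans (Nat.le_ceil _) (by exact_mod_cast h)
  have hn2' : (2 : ℝ) ≤ n := by exact_mod_cast hn2
  have hnpos : (0 : ℝ) < n := by linarith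
  have hn1 : (1 : ℝ) ≤ n := by linarith
  -- the side of the grid
  obtain ⟨r, hr⟩ : ∃ r : ℝ, r = (n : ℝ) ^ ((1 : ℝ) / dR) := ⟨_, rfl⟩
  have hr1 : (1 : ℝ) ≤ r := by rw [hr]; exact Real.one_le_rpow hn1 (by positivity)
  obtain ⟨B, hB⟩ : ∃ B : ℝ, B = A1 * r := ⟨_, rfl⟩
  have hB1 : (1 : ℝ) ≤ B := by rw [hB]; nlinarith
  obtain ⟨N, hN⟩ : ∃ N : ℕ, N = ⌊B⌋₊ := ⟨_, rfl⟩
  have hNB : (N : ℝ) ≤ B := by rw [hN]; exact Nat.floor_le (by linarith)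
  have hP' : ∀ p ∈ P, ∀ i, ∃ a : ℤ, p i = (a : ℝ) ∧ |a| ≤ (N : ℤ) := by
    intro p hp i
    obtain ⟨a, ha, hab⟩ := hP p hp i
    refine ⟨a, ha, ?_⟩
    have h1 : |(a : ℝ)| ≤ B := by
      rw [hB]
      refine le_trans hab ?_
      rw [← hr]
      exact mul_le_mul_of_nonneg_right hAA1 (by linarith)
    rw [hN]
    exact final_coord a B h1
  -- the bound for the circles
  obtain ⟨t, ht⟩ : ∃ t : ℝ, t = (n : ℝ) ^ (ε / 2) := ⟨_, rfl⟩
  have htpos : 0 < t := by rw [ht]; exact Real.rpow_pos_of_pos hnpos _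
  have ht1 : (1 : ℝ) ≤ t := by rw [ht]; exact Real.one_le_rpow hn1 (by positivity)
  obtain ⟨Rr, hRr⟩ : ∃ Rr : ℝ, Rr = C0 * t := ⟨_, rfl⟩
  have hRr1 : (1 : ℝ) ≤ Rr := by rw [hRr]; nlinarith
  have hrδ : (r ^ 2) ^ δ = t := by
    rw [hr, ht, hδdef]
    exact final_rdelta n hnpos dR ε hdRpos
  have hcirc : ∀ m : ℕ, 1 ≤ m → m ≤ 4 * (e + 2) * N ^ 2 → (reps m).card ≤ ⌊Rr⌋₊ := by
    intro m hm1 hm2
    apply Nat.le_floor
    have hm2' : (m : ℝ) ≤ 4 * dR * B ^ 2 := by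
      have h1 : (m : ℝ) ≤ ((4 * (e + 2) * N ^ 2 : ℕ) : ℝ) := by exact_mod_cast hm2
      have h2 : ((4 * (e + 2) * N ^ 2 : ℕ) : ℝ) = 4 * dR * (N : ℝ) ^ 2 := by
        rw [hdRe]; push_cast; ring
      rw [h2] at h1
      have h3 : (N : ℝ) ^ 2 ≤ B ^ 2 := by
        have hN0 : (0 : ℝ) ≤ N := Nat.cast_nonneg N
        nlinarith
      nlinarith
    calc ((reps m).card : ℝ) ≤ K * (m : ℝ) ^ δ := hK m hm1
      _ ≤ K * (4 * dR * B ^ 2) ^ δ := by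
          apply mul_le_mul_of_nonneg_left _ (by linarith)
          exact Real.rpow_le_rpow (by positivity) hm2' hδ.le
      _ = Rr := by
          have h4 : 4 * dR * B ^ 2 = (4 * dR * A1 ^ 2) * r ^ 2 := by rw [hB]; ring
          rw [h4, Real.mul_rpow (by positivity) (by positivity), hrδ, hRr, hC0def]
          ring
  have hR1 : 1 ≤ ⌊Rr⌋₊ := Nat.le_floor (by exact_mod_cast hRr1)
  have hcount := pin_count e P N ⌊Rr⌋₊ hR1 hP' hcirc x hx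
  obtain ⟨D, hD⟩ : ∃ D : ℕ, D = ((P.erase x).image fun y => dist x y).card := ⟨_, rfl⟩
  rw [← hD, ← hn_def] at hcount
  rw [← hD]
  have hD0 : (0 : ℝ) ≤ D := Nat.cast_nonneg _
  -- real form of the count
  obtain ⟨s, hs⟩ : ∃ s : ℝ, s = r ^ e := ⟨_, rfl⟩
  have hspos : 0 < s := by rw [hs]; positivity
  have hbox : (((4 * N + 1) ^ e : ℕ) : ℝ) ≤ (5 * A1) ^ e * s := by
    have h3 : (4 * (N : ℝ) + 1) ≤ 5 * B := by linarith
    have h2 : (((4 * N + 1) ^ e : ℕ) : ℝ) ≤ (5 * B) ^ e := by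
      push_cast
      exact pow_le_pow_left₀ (by positivity) h3 e
    have h4 : (5 * B) ^ e = (5 * A1) ^ e * s := by rw [hB, hs, ← mul_pow]; ring
    rw [← h4]
    exact h2
  have hfloor : ((⌊Rr⌋₊ : ℕ) : ℝ) ≤ Rr := Nat.floor_le (by linarith)
  have hcount' : (n : ℝ) ≤ 1 + (D : ℝ) * ((((4 * N + 1) ^ e : ℕ) : ℝ) * ((⌊Rr⌋₊ : ℕ) : ℝ)) := by
    exact_mod_cast hcount
  have h1 : (n : ℝ) ≤ 1 + D * (C1 * s * t) := by
    have h5 : (((4 * N + 1) ^ e : ℕ) : ℝ) * ((⌊Rr⌋₊ : ℕ) : ℝ) ≤ (5 * A1) ^ e * s * Rr :=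
      mul_le_mul hbox hfloor (Nat.cast_nonneg _) (by positivity)
    have h6 : (5 * A1) ^ e * s * Rr = C1 * s * t := by rw [hRr, hC1def]; ring
    rw [h6] at h5
    have := mul_le_mul_of_nonneg_left h5 hD0
    linarith
  have ht2K : 2 * C1 ≤ t := by
    have h2Cpos : (0 : ℝ) < 2 * C1 := by linarith
    calc 2 * C1 = ((2 * C1) ^ (2 / ε)) ^ (ε / 2) := by
          rw [← Real.rpow_mul h2Cpos.le]
          have : 2 / ε * (ε / 2) = 1 := by field_simp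
          rw [this, Real.rpow_one]
      _ ≤ (n : ℝ) ^ (ε / 2) := Real.rpow_le_rpow (by positivity) hnK (by positivity)
      _ = t := ht.symm
  have hsplit : (n : ℝ) ^ ((2 : ℝ) / dR - ε) * (s * t * t) = n := by
    rw [hs, hr, ht]
    exact final_split n hnpos e dR ε hdRe
  exact final_arith n D C1 s t _ hn2' hD0 hspos htpos ht2K h1 hsplit

end Vale.Agent.H70.P054
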